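import Vale.Agent.P260.H15.G5a

/-!
# P260, block G5
-/

set_option linter.all false

namespace Vale.Agent.P260.H15

open scoped commutatorElement
open Subgroup

variable {G : Type} [Group G]

theorem zmod_pow {q : ℕ} (u : Multiplicative (ZMod q)) : u ^ q = 1 := by
  apply Multiplicative.toAdd.injective
  rw [toAdd_pow, toAdd_one, nsmul_eq_mul, CharP.cast_eq_zero, zero_mul]

/-- the rank two case is impossible -/
theorem no_rank_two {q : ℕ} [Fact q.Prime] (hNL : BlockNL) (hPD : PD4 G)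
    {N₀ N W E₀ : Subgroup G} [N₀.Normal] [W.Normal] (hNf : N.FiniteIndex) (hWN : W ≤ N)
    (hWq : QPow q (W.relIndex N)) (hR : N₀ ⊓ W ≤ RQ q N) (hE0 : E₀ ≤ N₀)
    (hdeep : hd q (E₀ ⊔ W : Subgroup G) 2 + 2 ≤ 2 * hd q (E₀ ⊔ W : Subgroup G) 1)
    (j : Multiplicative (ZMod q) × Multiplicative (ZMod q) →* G ⧸ W) (hj : Function.Injective j)
    (hjr : j.range = E₀.map (QuotientGroup.mk' W)) : False := by
  set H₁ : Subgroup G := E₀ ⊔ W with hH₁
  have hWf : W.FiniteIndex := by
    constructor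
    rw [← Subgroup.relIndex_mul_index hWN]
    obtain ⟨a, ha⟩ := hWq
    rw [ha]
    exact mul_ne_zero (pow_ne_zero _ (Fact.out : q.Prime).ne_zero) hNf.index_ne_zero
  have hWH : W ≤ H₁ := le_sup_right
  have hEH : E₀ ≤ H₁ := le_sup_left
  have hHf : H₁.FiniteIndex := Subgroup.finiteIndex_of_le hWH
  have hmap : H₁.map (QuotientGroup.mk' W) = E₀.map (QuotientGroup.mk' W) := by
    rw [hH₁, Subgroup.map_sup]
    have : W.map (QuotientGroup.mk' W) = ⊥ := by
      rw [Subgroup.map_eq_bot_iff, QuotientGroup.ker_mk']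
    rw [this, sup_bot_eq]
  -- the homomorphism `x`
  let e := MonoidHom.ofInjective hj
  let φ : H₁ →* j.range := ((QuotientGroup.mk' W).comp H₁.subtype).codRestrict j.range (by
    intro h
    rw [hjr, ← hmap]
    exact ⟨h, h.2, rfl⟩)
  let x : H₁ →* Multiplicative (ZMod q) × Multiplicative (ZMod q) :=
    (e.symm : j.range →* _).comp φ
  have hx : ∀ h : H₁, x h = 1 ↔ (h : G) ∈ W := by
    intro h
    change e.symm (φ h) = 1 ↔ _
    rw [MulEquiv.map_eq_one_iff, ← QuotientGroup.eq_one_iff (N := W)]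
    constructor
    · intro h'
      exact congrArg Subtype.val h'
    · intro h'
      exact Subtype.ext h'
  have hfin := hPD.fin4 q H₁ hHf
  have hsup : E₀.subgroupOf H₁ ⊔ W.subgroupOf H₁ = ⊤ := by
    rw [← Subgroup.subgroupOf_sup hEH hWH]
    exact Subgroup.subgroupOf_self _
  have hWx : W.subgroupOf H₁ ≤ x.ker := by
    intro h hh
    rw [MonoidHom.mem_ker, hx]
    exact hh
  have hEx : (E₀.subgroupOf H₁).map x = ⊤ := by
    rw [eq_top_iff]
    intro u _
    have h1 : j u ∈ E₀.map (QuotientGroup.mk' W) := by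
      rw [← hjr]
      exact ⟨u, rfl⟩
    obtain ⟨g, hg, hgu⟩ := h1
    refine ⟨⟨g, hEH hg⟩, hg, ?_⟩
    change e.symm (φ ⟨g, hEH hg⟩) = u
    rw [MulEquiv.symm_apply_eq]
    exact Subtype.ext hgu
  have key : ∀ Y : Subgroup H₁, Y.Normal → QPow q Y.index → ∀ g : H₁, (g : G) ∈ N₀ →
      (g : G) ∈ W → g ∈ Y := by
    intro Y hYn hYq g hg0 hgW
    have h1 : RQ q N ≤ Y.map H₁.subtype := by
      obtain ⟨b, hb⟩ := hYq
      refine RQ_le hWN hWq ?_ b ?_
      · constructor
        rw [Subgroup.index_map_subtype]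
        refine mul_ne_zero ?_ hHf.index_ne_zero
        rw [hb]
        exact pow_ne_zero _ (Fact.out : q.Prime).ne_zero
      · intro w hw
        refine ⟨⟨w, hWH hw⟩ ^ q ^ b, ?_, rfl⟩
        rw [← hb]
        exact Subgroup.pow_index_mem Y _
    obtain ⟨g', hg', hgg⟩ := h1 (hR ⟨hg0, hgW⟩)
    have : g' = g := Subtype.ext hgg
    exact this ▸ hg'
  have hfinal := hNL q H₁ (hfin.fin 1 (by norm_num)) (hfin.fin 2 (by norm_num))
    (E₀.subgroupOf H₁) (W.subgroupOf H₁) hsup x hWx hEx (by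
      intro Y hYn hYq
      have k := key Y hYn hYq
      refine ⟨?_, ?_, ?_, ?_⟩
      · intro g hg
        refine k _ ?_ ?_
        · exact pow_mem (hE0 hg) _
        · rw [← hx, map_pow]
          exact Prod.ext (zmod_pow _) (zmod_pow _)
      · intro g hg g' hg'
        refine k _ ?_ ?_
        · have h1 : (g : G) ∈ N₀ := hE0 hg
          have h2 : (g' : G) ∈ N₀ := hE0 hg'
          change (g : G) * (g' : G) * (g : G)⁻¹ * (g' : G)⁻¹ ∈ N₀
          exact mul_mem (mul_mem (mul_mem h1 h2) (inv_mem h1)) (inv_mem h2)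
        · rw [← hx, map_commutatorElement, commutatorElement_eq_one_iff_commute]
          exact mul_comm _ _
      · intro g hg w hw
        have h1 : (g : G) ∈ N₀ := hE0 hg
        have h2 : (w : G) ∈ W := hw
        refine k _ ?_ ?_
        · change (g : G) * (w : G) * (g : G)⁻¹ * (w : G)⁻¹ ∈ N₀
          rw [mul_assoc, mul_assoc, ← mul_assoc (w : G)]
          exact mul_mem h1 (Normal.conj_mem inferInstance _ (inv_mem h1) _)
        · change (g : G) * (w : G) * (g : G)⁻¹ * (w : G)⁻¹ ∈ W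
          exact mul_mem (Normal.conj_mem inferInstance _ h2 _) (inv_mem h2)
      · intro g hg hxg
        exact k _ (hE0 hg) ((hx _).1 hxg))
  omega

/-- **Block G5.** -/
theorem blockG5_of (hNL : BlockNL) : BlockG5 := by
  intro G _ hPD hdeep N₀ hN0 hP1 q _ M _ hM S hS hSq
  have hq : q.Prime := Fact.out
  obtain ⟨N, hNn, hNf, hNM, hD⟩ := hdeep q M hM
  obtain ⟨W, hWn, hWN, hWq, hWR⟩ := hP1 q N hNn hNf
  have hWf : W.FiniteIndex := by
    constructor
    rw [← Subgroup.relIndex_mul_index hWN]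
    obtain ⟨a, ha⟩ := hWq
    rw [ha]
    exact mul_ne_zero (pow_ne_zero _ hq.ne_zero) hNf.index_ne_zero
  have hWM : W ≤ M := hWN.trans hNM
  let πN : G ⧸ N →* G ⧸ M := QuotientGroup.map N M (MonoidHom.id G) hNM
  let πW : G ⧸ W →* G ⧸ M := QuotientGroup.map W M (MonoidHom.id G) hWM
  have hfN : Finite (G ⧸ N) := inferInstance
  have hfW : Finite (G ⧸ W) := inferInstance
  set A : Subgroup (G ⧸ N) := N₀.map (QuotientGroup.mk' N) ⊓ S.comap πN with hA
  let φ : A →* S := (πN.comp A.subtype).codRestrict S (fun a => a.2.2)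
  have hφ : Function.Surjective φ := by
    rintro ⟨s, hs⟩
    obtain ⟨g, hg, rfl⟩ := hS hs
    exact ⟨⟨QuotientGroup.mk' N g, ⟨g, hg, rfl⟩, hs⟩, rfl⟩
  obtain ⟨T⟩ : Nonempty (Sylow q A) := inferInstance
  have hTS : (T : Subgroup A).map φ = ⊤ :=
    ((T.mapSurjective hφ).is_maximal' (hSq.to_subgroup ⊤) le_top).symm
  set T' : Subgroup (G ⧸ N) := (T : Subgroup A).map A.subtype with hT'
  set K : Subgroup G := T'.comap (QuotientGroup.mk' N) with hK
  have hNK : N ≤ K := by
    intro n hn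
    change QuotientGroup.mk' N n ∈ T'
    rw [show QuotientGroup.mk' N n = 1 from (QuotientGroup.eq_one_iff n).2 hn]
    exact one_mem _
  have hKm : K.map (QuotientGroup.mk' N) = T' :=
    Subgroup.map_comap_eq_self_of_surjective (QuotientGroup.mk'_surjective N) _
  have hNKq : QPow q (N.relIndex K) := by
    rw [relIndex_mk, hKm]
    have h1 : IsPGroup q T' := T.2.map _
    obtain ⟨n, hn⟩ := IsPGroup.iff_card.1 h1
    exact ⟨n, hn⟩
  have hWK : W ≤ K := hWN.trans hNK
  have hWKq : QPow q (W.relIndex K) := by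
    rw [← Subgroup.relIndex_mul_relIndex _ _ _ hWN hNK]
    exact QPow.mul hWq hNKq
  set K₀ : Subgroup G := N₀ ⊓ K with hK0
  set P : Subgroup (G ⧸ W) := K₀.map (QuotientGroup.mk' W) with hP
  have hPS : ∀ p : P, πW p ∈ S := by
    rintro ⟨_, g, hg, rfl⟩
    change πN (QuotientGroup.mk' N g) ∈ S
    obtain ⟨t, _, ht⟩ := hg.2
    have := t.2.2
    have h2 : A.subtype t = QuotientGroup.mk' N g := ht
    rw [← h2]
    exact this
  let f : P →* S := (πW.comp P.subtype).codRestrict S hPS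
  have hPq : IsPGroup q P := by
    have h1 : IsPGroup q (K.map (QuotientGroup.mk' W)) := by
      obtain ⟨n, hn⟩ := hWKq
      rw [relIndex_mk] at hn
      exact IsPGroup.of_card hn
    exact h1.to_le (Subgroup.map_mono inf_le_right)
  refine ⟨P, inferInstance, inferInstance, f, hPq, ?_, ?_⟩
  · -- no rank two
    rintro ⟨a, g, hg, rfl⟩ ⟨b, h, hh, rfl⟩ ha hb hab ha1
    by_contra hb1
    have ha' : (QuotientGroup.mk' W g) ^ q = 1 := congrArg Subtype.val ha
    have hb' : (QuotientGroup.mk' W h) ^ q = 1 := congrArg Subtype.val hb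
    have hab' : Commute (QuotientGroup.mk' W g) (QuotientGroup.mk' W h) :=
      congrArg Subtype.val hab
    have ha1' : QuotientGroup.mk' W g ≠ 1 := fun h' => ha1 (Subtype.ext h')
    have hb1' : QuotientGroup.mk' W h ∉ zpowers (QuotientGroup.mk' W g) := by
      rintro ⟨n, hn⟩
      exact hb1 ⟨n, Subtype.ext hn⟩
    obtain ⟨j, hj, hjr⟩ := exists_hom q _ _ ha' hb' hab' ha1' hb1'
    have hE0 : closure {g, h} ≤ K₀ := by
      rw [closure_le]
      rintro _ (rfl | rfl)
      · exact hg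
      · exact hh
    refine no_rank_two (E₀ := closure {g, h}) hNL hPD hNf hWN hWq hWR (hE0.trans inf_le_left)
      ?_ j hj ?_
    · exact hD K hNK hNKq _ W le_sup_right
        (sup_le (hE0.trans inf_le_right) hWK) inferInstance hWKq
    · rw [hjr, MonoidHom.map_closure, Set.image_pair]
  · -- surjective
    rintro ⟨s, hs⟩
    have h1 : (⟨s, hs⟩ : S) ∈ (T : Subgroup A).map φ := hTS ▸ mem_top _
    obtain ⟨t, ht, hts⟩ := h1
    obtain ⟨g, hg, hgt⟩ := t.2.1
    refine ⟨⟨QuotientGroup.mk' W g, g, ⟨hg, ?_⟩, rfl⟩, ?_⟩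
    · exact ⟨t, ht, hgt.symm⟩
    · rw [← hts]
      apply Subtype.ext
      change πN (QuotientGroup.mk' N g) = πN (t : G ⧸ N)
      rw [hgt]

end Vale.Agent.P260.H15
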