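import Vale.Agent.P260.Spec4

/-!
# P260, block G5: group theory
-/

set_option linter.all false

namespace Vale.Agent.P260.H15

open scoped commutatorElement
open Subgroup

variable {G : Type} [Group G]

/-- a bound for the `q`-residual -/
theorem RQ_le {q : ℕ} [Fact q.Prime] {N W Y : Subgroup G} (hWN : W ≤ N) [W.Normal]
    (hWq : QPow q (W.relIndex N)) (hYf : Y.FiniteIndex) (b : ℕ) (hY : ∀ w ∈ W, w ^ q ^ b ∈ Y) :
    RQ q N ≤ Y := by
  obtain ⟨a, ha⟩ := hWq
  have hfi : (Y.subgroupOf N).FiniteIndex := inferInstance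
  set C : Subgroup N := (Y.subgroupOf N).normalCore with hC
  have hCf : C.FiniteIndex := inferInstance
  -- `N ⧸ C` is a `q`-group
  have hp : IsPGroup q (N ⧸ C) := by
    intro g
    obtain ⟨g, rfl⟩ := QuotientGroup.mk_surjective g
    refine ⟨a + b, ?_⟩
    have h1 : g ^ q ^ a ∈ W.subgroupOf N := by
      have := Subgroup.pow_index_mem (W.subgroupOf N) g
      rwa [show (W.subgroupOf N).index = q ^ a from ha] at this
    have h2 : g ^ q ^ (a + b) ∈ C := by
      intro n
      rw [Subgroup.mem_subgroupOf] at h1 ⊢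
      have h3 : (n : G) * (g : G) ^ q ^ a * (n : G)⁻¹ ∈ W :=
        Normal.conj_mem inferInstance _ (by simpa using h1) _
      have h4 := hY _ h3
      have h5 : ((n * g ^ q ^ (a + b) * n⁻¹ : N) : G)
          = ((n : G) * (g : G) ^ q ^ a * (n : G)⁻¹) ^ q ^ b := by
        rw [conj_pow, ← pow_mul, ← pow_add]
        simp
      rw [h5]
      exact h4
    exact (QuotientGroup.eq_one_iff _).2 h2
  obtain ⟨n, hn⟩ := IsPGroup.iff_card.1 hp
  have hmem : C.map N.subtype ∈ {W : Subgroup G | W ≤ N ∧ (W.subgroupOf N).Normal ∧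
      QPow q (W.relIndex N)} := by
    have e : (C.map N.subtype).subgroupOf N = C := by
      rw [Subgroup.subgroupOf, Subgroup.comap_map_eq_self_of_injective N.subtype_injective]
    refine ⟨?_, ?_, n, ?_⟩
    · rw [Subgroup.map_le_iff_le_comap]
      intro x _
      exact x.2
    · rw [e]
      infer_instance
    · rw [Subgroup.relIndex, e, ← hn]
      rfl
  refine (sInf_le hmem).trans ?_
  rw [Subgroup.map_le_iff_le_comap]
  exact (Subgroup.normalCore_le _)

theorem QPow.mul {q m n : ℕ} (hm : QPow q m) (hn : QPow q n) : QPow q (m * n) := by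
  obtain ⟨a, rfl⟩ := hm
  obtain ⟨b, rfl⟩ := hn
  exact ⟨a + b, (pow_add _ _ _).symm⟩

theorem relIndex_mk (N K : Subgroup G) [N.Normal] :
    N.relIndex K = Nat.card (K.map (QuotientGroup.mk' N)) := by
  have h : N = (⊥ : Subgroup (G ⧸ N)).comap (QuotientGroup.mk' N) := by
    rw [MonoidHom.comap_bot, QuotientGroup.ker_mk']
  conv_lhs => rw [h]
  rw [Subgroup.relIndex_comap, Subgroup.relIndex_bot_left]

theorem pow_mod_eq {Q : Type} [Group Q] {q : ℕ} {a : Q} (ha : a ^ q = 1) (m : ℕ) :
    a ^ (m % q) = a ^ m := by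
  conv_rhs => rw [← Nat.div_add_mod m q, pow_add, pow_mul, ha, one_pow, one_mul]

/-- the homomorphism `ℤ/q → Q` given by an element of exponent `q` -/
def hom1 {Q : Type} [Group Q] (q : ℕ) [Fact q.Prime] (a : Q) (ha : a ^ q = 1) :
    Multiplicative (ZMod q) →* Q where
  toFun u := a ^ (Multiplicative.toAdd u).val
  map_one' := by simp
  map_mul' u v := by
    rw [toAdd_mul, ZMod.val_add, pow_mod_eq ha, pow_add]

/-- homomorphisms from `(ℤ/q)²` -/
theorem exists_hom {Q : Type} [Group Q] (q : ℕ) [Fact q.Prime] (a b : Q) (ha : a ^ q = 1)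
    (hb : b ^ q = 1) (hab : Commute a b) (ha1 : a ≠ 1) (hb1 : b ∉ zpowers a) :
    ∃ j : Multiplicative (ZMod q) × Multiplicative (ZMod q) →* Q, Function.Injective j ∧
      j.range = closure {a, b} := by
  have hq : q.Prime := Fact.out
  have hcomm : ∀ m n, Commute (hom1 q a ha m) (hom1 q b hb n) := fun m n =>
    (hab.pow_pow _ _)
  have hb1' : b ≠ 1 := fun h => hb1 (h ▸ one_mem _)
  have key : ∀ {c : Q}, c ^ q = 1 → c ≠ 1 → ∀ u : Multiplicative (ZMod q), u ≠ 1 →
      c ∈ zpowers (c ^ (Multiplicative.toAdd u).val) := by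
    intro c hc hc1 u hu
    rw [mem_zpowers_pow_iff, orderOf_eq_prime hc hc1]
    refine (Nat.coprime_of_lt_prime ?_ (ZMod.val_lt _) hq).symm
    intro h
    rw [ZMod.val_eq_zero] at h
    exact hu h
  refine ⟨(hom1 q a ha).noncommCoprod (hom1 q b hb) hcomm, ?_, ?_⟩
  · rw [injective_iff_map_eq_one]
    rintro ⟨u, v⟩ h
    rw [MonoidHom.noncommCoprod_apply] at h
    change a ^ (Multiplicative.toAdd u).val * b ^ (Multiplicative.toAdd v).val = 1 at h
    by_cases hv : v = 1
    · subst hv
      by_cases hu : u = 1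
      · subst hu
        rfl
      · exfalso
        have h1 := key ha ha1 u hu
        simp only [toAdd_one, ZMod.val_zero, pow_zero, mul_one] at h
        rw [h] at h1
        simp at h1
        exact ha1 h1
    · exfalso
      have h1 := key hb hb1' v hv
      have h2 : b ^ (Multiplicative.toAdd v).val ∈ zpowers a := by
        rw [← inv_eq_of_mul_eq_one_right h]
        exact inv_mem (pow_mem (mem_zpowers a) _)
      exact hb1 ((zpowers_le.2 h2) h1)
  · have h1 : ∀ (c : Q) (hc : c ^ q = 1), hom1 q c hc (Multiplicative.ofAdd 1) = c := by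
      intro c hc
      change c ^ (1 : ZMod q).val = c
      rw [ZMod.val_one, pow_one]
    apply le_antisymm
    · rintro _ ⟨⟨u, v⟩, rfl⟩
      rw [MonoidHom.noncommCoprod_apply]
      exact mul_mem (pow_mem (subset_closure (by simp)) _) (pow_mem (subset_closure (by simp)) _)
    · rw [closure_le]
      rintro x (rfl | rfl)
      · exact ⟨(Multiplicative.ofAdd 1, 1), by simp [h1]⟩
      · exact ⟨(1, Multiplicative.ofAdd 1), by simp [h1]⟩

end Vale.Agent.P260.H15
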