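import Vale.Agent.P260.H15.Pdual
import Vale.Agent.P260.H20.Defs

/-!
# P260, block A3: duality for the cohomology of the group

`gdual`: an invariant cocycle `f` of degree `n - 1` whose products with all the invariant cocycles
of degree one are coboundaries is a coboundary. `card_le_card`: hence `h_{n-1} ≤ h_1` if
`h_n ≤ 1`.
-/

set_option linter.all false

open Set Finsupp

namespace Vale.Agent.P260.A

open Vale.Agent.P216.Sl Vale.Agent.P216.PS Vale.Agent.P216
open Vale.Agent.P216.N929 (Fine Coc Cy Tau)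

variable {k : Type} [Field k] {N : Type} [MetricSpace N] {G : Type} [Group G]

/-- The product of a cocycle with a coboundary. -/
theorem exL_cup_right {X : Set N} {q m : ℕ} (hm : 1 ≤ m) {u v : List N → k} (hu : CocL X q u)
    (hv : ExL X m v) : ExL X (q + m) (N929.cup q u v) := by
  obtain ⟨ε, hε, hu⟩ := hu
  obtain ⟨g, -, ε', hε', hg⟩ := hv
  refine ⟨fun l => (-1) ^ q * N929.cup q u g l, fun h => by omega, min ε ε', lt_min hε hε',
    fun l hl hs => ?_⟩
  rw [PS.dl_smul, N929.dl_cup q u g l (by omega)]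
  have hs1 : SmL X ε (l.take (q + 2)) :=
    ⟨fun x hx => hs.1 x (List.mem_of_mem_take hx), fun x hx y hy =>
      (hs.2 x (List.mem_of_mem_take hx) y (List.mem_of_mem_take hy)).trans_le (min_le_left _ _)⟩
  have hs2 : SmL X ε' (l.drop q) :=
    ⟨fun x hx => hs.1 x (List.mem_of_mem_drop hx), fun x hx y hy =>
      (hs.2 x (List.mem_of_mem_drop hx) y (List.mem_of_mem_drop hy)).trans_le (min_le_right _ _)⟩
  have h2 := hu (l.take (q + 2)) (by rw [List.length_take]; omega) hs1
  have h3 := hg (l.drop q) (by rw [List.length_drop]; omega) hs2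
  have h4 : ((-1 : k) ^ q) * (-1) ^ q = 1 := by
    rw [← mul_pow]
    simp
  rw [h2, ← h3, zero_mul, zero_add, ← mul_assoc, h4, one_mul]
  rfl

theorem exL_congr' {X : Set N} {m : ℕ} {f f' : List N → k} (hf : ExL X m f)
    (h : ∃ ε > 0, ∀ l : List N, l.length = m + 1 → SmL X ε l → f' l = f l) : ExL X m f' := by
  obtain ⟨a, ha0, ε, hε, ha⟩ := hf
  obtain ⟨ε', hε', h⟩ := h
  exact ⟨a, ha0, min ε ε', lt_min hε hε', fun l hl hs => by
    rw [h l hl (hs.mono le_rfl (min_le_right _ _)), ha l hl (hs.mono le_rfl (min_le_left _ _))]⟩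

/-- What is used of the comparison map from the invariant cochains of the group to the germs of
cochains of the quotient. -/
structure Cmp (k : Type) [Field k] (G : Type) [Group G] (N : Type) [MetricSpace N]
    (Φ : (List G → k) → List N → k) : Prop where
  coc : ∀ i f, CocG i f → CocL (univ : Set N) i (Φ f)
  ex : ∀ i f, ExG i f → ExL (univ : Set N) i (Φ f)
  inj : ∀ i f, CocG i f → ExL (univ : Set N) i (Φ f) → ExG i f
  surj : ∀ v : List N → k, CocL (univ : Set N) 1 v →
    ∃ f, CocG 1 f ∧ ExL (univ : Set N) 1 fun l => v l - Φ f l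
  cup : ∀ i j f g, CocG i f → CocG j g → ∃ ε > 0, ∀ l : List N, l.length = i + j + 1 →
    SmL univ ε l → Φ (N929.cup i f g) l = N929.cup i (Φ f) (Φ g) l

/-- **Duality for the cohomology of the group.** -/
theorem gdual [PreconnectedSpace N] {q : ℕ} (hq : 1 ≤ q) {w : List N → k}
    (hw0 : ¬ ExL (univ : Set N) (q + 1) w)
    (HT : ∀ ρ₁ > 0, ∃ (τ : Tau k N (q + 1) ρ₁) (y : N), ExL (univ : Set N) (q + 1) fun l =>
      τ.f (l.map fun x => (x, y)) - w l)
    {Φ : (List G → k) → List N → k} (hΦ : Cmp k G N Φ) {f : List G → k} (hf : CocG q f)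
    (h : ∀ g : List G → k, CocG 1 g → ExG (q + 1) (N929.cup q f g)) : ExG q f := by
  refine hΦ.inj q f hf (pdual hq le_rfl hw0 HT (hΦ.coc q f hf) fun v hv => ?_)
  rw [show q + 1 - q = 1 by omega] at hv
  obtain ⟨g, hg, hvg⟩ := hΦ.surj v hv
  have h1 : ExL (univ : Set N) (q + 1) (N929.cup q (Φ f) (Φ g)) := by
    obtain ⟨ε, hε, h2⟩ := hΦ.cup q 1 f g hf hg
    exact exL_congr' (hΦ.ex _ _ (h g hg)) ⟨ε, hε, fun l hl hs => (h2 l hl hs).symm⟩
  have h2 := exL_cup_right le_rfl (hΦ.coc q f hf) hvg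
  refine exL_congr (exL_add h1 h2) fun l _ => ?_
  simp only [N929.cup]
  ring

/-! ### Linear algebra of invariant cochains -/

theorem inv_lin {ι : Type} (s : Finset ι) (c : ι → k) {F : ι → List G → k}
    (h : ∀ i ∈ s, Inv (F i)) : Inv fun l => ∑ i ∈ s, c i * F i l := fun g l =>
  Finset.sum_congr rfl fun i hi => by rw [h i hi g l]

theorem dlG_lin {ι : Type} (s : Finset ι) (c : ι → k) (F : ι → List G → k) (l : List G) :
    dl (fun l => ∑ i ∈ s, c i * F i l) l = ∑ i ∈ s, c i * dl (F i) l := by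
  classical
  induction s using Finset.induction_on with
  | empty => simpa using PS.dl_zero_fun (k := k) l
  | insert i s hi ih =>
    simp only [Finset.sum_insert hi]
    rw [PS.dl_add, PS.dl_smul, ih]

theorem cocG_lin {ι : Type} (s : Finset ι) (c : ι → k) {n : ℕ} {F : ι → List G → k}
    (h : ∀ i ∈ s, CocG n (F i)) : CocG n fun l => ∑ i ∈ s, c i * F i l :=
  ⟨inv_lin s c fun i hi => (h i hi).1, fun l hl => by
    rw [dlG_lin]
    exact Finset.sum_eq_zero fun i hi => by rw [(h i hi).2 l hl, mul_zero]⟩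

theorem exG_lin {ι : Type} (s : Finset ι) (c : ι → k) {n : ℕ} {F : ι → List G → k}
    (h : ∀ i ∈ s, ExG n (F i)) : ExG n fun l => ∑ i ∈ s, c i * F i l := by
  classical
  have h' : ∀ i, ∃ g : List G → k, i ∈ s → ((n = 0 → ∀ l, g l = 0) ∧ Inv g ∧
      ∀ l : List G, l.length = n + 1 → F i l = dl g l) := by
    intro i
    by_cases hi : i ∈ s
    · obtain ⟨g, hg⟩ := h i hi
      exact ⟨g, fun _ => hg⟩
    · exact ⟨fun _ => 0, fun hi' => absurd hi' hi⟩
  choose g hg using h'
  refine ⟨fun l => ∑ i ∈ s, c i * g i l, fun h0 l => Finset.sum_eq_zero fun i hi => by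
    rw [(hg i hi).1 h0, mul_zero], inv_lin s c fun i hi => (hg i hi).2.1, fun l hl => ?_⟩
  rw [dlG_lin]
  exact Finset.sum_congr rfl fun i hi => by rw [(hg i hi).2.2 l hl]

theorem exG_add {n : ℕ} {f g : List G → k} (hf : ExG n f) (hg : ExG n g) :
    ExG n fun l => f l + g l := by
  obtain ⟨a, ha0, ha1, ha⟩ := hf
  obtain ⟨b, hb0, hb1, hb⟩ := hg
  refine ⟨fun l => a l + b l, fun h l => by simp only [ha0 h, hb0 h, add_zero], fun x l => by
    simp only [ha1 x l, hb1 x l], fun l hl => ?_⟩
  beta_reduce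
  rw [PS.dl_add, ha l hl, hb l hl]

theorem exG_smul {n : ℕ} {f : List G → k} (c : k) (hf : ExG n f) : ExG n fun l => c * f l := by
  obtain ⟨a, ha0, ha1, ha⟩ := hf
  refine ⟨fun l => c * a l, fun h l => by simp only [ha0 h, mul_zero], fun x l => by
    simp only [ha1 x l], fun l hl => ?_⟩
  beta_reduce
  rw [PS.dl_smul, ha l hl]

theorem exG_congr {n : ℕ} {f f' : List G → k} (hf : ExG n f)
    (h : ∀ l : List G, l.length = n + 1 → f' l = f l) : ExG n f' := by
  obtain ⟨a, ha0, ha1, ha⟩ := hf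
  exact ⟨a, ha0, ha1, fun l hl => by rw [h l hl, ha l hl]⟩

theorem inv_cup {n : ℕ} {f g : List G → k} (hf : Inv f) (hg : Inv g) : Inv (N929.cup n f g) :=
  fun x l => by
    simp only [N929.cup]
    rw [← List.map_take, ← List.map_drop, hf, hg]

theorem cocG_cup {n m : ℕ} {f g : List G → k} (hf : CocG n f) (hg : CocG m g) :
    CocG (n + m) (N929.cup n f g) :=
  ⟨inv_cup hf.1 hg.1, fun l hl => by
    rw [N929.dl_cup n f g l (by omega), hf.2 _ (by rw [List.length_take]; omega),
      hg.2 _ (by rw [List.length_drop]; omega), zero_mul, mul_zero, mul_zero, add_zero]⟩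

/-- The product of a cocycle with an invariant coboundary. -/
theorem exG_cup_right {q m : ℕ} (hm : 1 ≤ m) {u v : List G → k} (hu : CocG q u)
    (hv : ExG m v) : ExG (q + m) (N929.cup q u v) := by
  obtain ⟨g, -, hg1, hg⟩ := hv
  refine ⟨fun l => (-1) ^ q * N929.cup q u g l, fun h => by omega, fun x l => by
    beta_reduce
    rw [inv_cup hu.1 hg1], fun l hl => ?_⟩
  beta_reduce
  rw [PS.dl_smul, N929.dl_cup q u g l (by omega), hu.2 _ (by rw [List.length_take]; omega)]
  have h3 := hg (l.drop q) (by rw [List.length_drop]; omega)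
  have h4 : ((-1 : k) ^ q) * (-1) ^ q = 1 := by
    rw [← mul_pow]
    simp
  rw [← h3, zero_mul, zero_add, ← mul_assoc, h4, one_mul]
  rfl

/-- **`h_q ≤ h_1`** for `q = n - 1`, if the cocycles of degree `n` are multiples of one of them
modulo the coboundaries. -/
theorem card_le_card [PreconnectedSpace N] {q : ℕ} (hq : 1 ≤ q) {w : List N → k}
    (hw0 : ¬ ExL (univ : Set N) (q + 1) w)
    (HT : ∀ ρ₁ > 0, ∃ (τ : Tau k N (q + 1) ρ₁) (y : N), ExL (univ : Set N) (q + 1) fun l =>
      τ.f (l.map fun x => (x, y)) - w l)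
    {Φ : (List G → k) → List N → k} (hΦ : Cmp k G N Φ) {ω : List G → k}
    (hω : ∀ f : List G → k, CocG (q + 1) f → ∃ a : k, ExG (q + 1) fun l => f l - a * ω l)
    {m d : ℕ} {u : Fin m → List G → k} (hu : ∀ j, CocG q (u j))
    (hind : ∀ a : Fin m → k, ExG q (fun l => ∑ j, a j * u j l) → a = 0)
    {v : Fin d → List G → k} (hv : ∀ i, CocG 1 (v i))
    (hspan : ∀ f : List G → k, CocG 1 f → ∃ c : Fin d → k, ExG 1 fun l => f l - ∑ i, c i * v i l) :
    m ≤ d := by
  have h1 : ∀ j i, ∃ a : k, ExG (q + 1) fun l => N929.cup q (u j) (v i) l - a * ω l :=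
    fun j i => hω _ (cocG_cup (hu j) (hv i))
  choose A hA using h1
  let L : (Fin m → k) →ₗ[k] (Fin d → k) := Matrix.mulVecLin (Matrix.of fun i j => A j i)
  have hL : Function.Injective L := by
    rw [← LinearMap.ker_eq_bot, LinearMap.ker_eq_bot']
    intro a ha
    refine hind a ?_
    refine gdual hq hw0 HT hΦ (cocG_lin _ _ fun j _ => hu j) fun g hg => ?_
    obtain ⟨c, hc⟩ := hspan g hg
    -- the products with the `v i`
    have h2 : ∀ i, ExG (q + 1) (N929.cup q (fun l => ∑ j, a j * u j l) (v i)) := by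
      intro i
      have h3 : ∑ j, A j i * a j = 0 := by
        have := congrFun ha i
        simpa [L, Matrix.mulVec, dotProduct] using this
      refine exG_congr (exG_lin Finset.univ a (F := fun j l =>
        N929.cup q (u j) (v i) l - A j i * ω l) fun j _ => hA j i) fun l _ => ?_
      have h4 : ∑ j, a j * (N929.cup q (u j) (v i) l - A j i * ω l) =
          ∑ j, a j * N929.cup q (u j) (v i) l - (∑ j, A j i * a j) * ω l := by
        rw [Finset.sum_mul, ← Finset.sum_sub_distrib]
        exact Finset.sum_congr rfl fun j _ => by ring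
      rw [h4, h3, zero_mul, sub_zero]
      simp only [N929.cup, Finset.sum_mul]
      exact Finset.sum_congr rfl fun j _ => by ring
    have h5 := exG_cup_right le_rfl (cocG_lin Finset.univ a fun j _ => hu j) hc
    refine exG_congr (exG_add h5 (exG_lin Finset.univ c fun i _ => h2 i)) fun l _ => ?_
    simp only [N929.cup]
    have h6 : ∀ x y : k, ∑ i, c i * (x * v i (l.drop q)) = x * ∑ i, c i * v i (l.drop q) := by
      intro x y
      rw [Finset.mul_sum]
      exact Finset.sum_congr rfl fun i _ => by ring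
    rw [h6 _ 0]
    ring
  have := LinearMap.finrank_le_finrank_of_injective hL
  simpa using this

end Vale.Agent.P260.A
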