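import Vale.Agent.P216.H126T.PD

/-!
# P260, block A3: Poincare duality for list cochains

`pdual`: in a compact connected metric space with Thom cochains, a cocycle of degree `q` whose
products with all the cocycles of degree `n - q` are exact is exact.
-/

set_option linter.all false

open Set Finsupp

namespace Vale.Agent.P260.A

open Vale.Agent.P216.Sl Vale.Agent.P216.PS Vale.Agent.P216
open Vale.Agent.P216.H126T
open Vale.Agent.P216.N929 (Fine Coc Cy Tau dl_congr bd_eq_zero ex_iff not_ex_iff)

variable {k : Type} [Field k] {N : Type} [MetricSpace N]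

/-- **Poincare duality**: a normalised cocycle of degree `q` whose products with all the cocycles
of degree `n - q` are exact is exact. -/
theorem pd_cup [PreconnectedSpace N] {n q : ℕ} (hq : 1 ≤ q) (hqn : q + 1 ≤ n)
    {w : List N → k} (hw0 : ¬ ExL (univ : Set N) n w)
    (HT : ∀ ρ₁ > 0, ∃ (τ : Tau k N n ρ₁) (y : N), ExL (univ : Set N) n fun l =>
      τ.f (l.map fun x => (x, y)) - w l)
    {u : List N → k}
    (hN : Nrm u) (hu : CocL (univ : Set N) q u)
    (h : ∀ v : List N → k, CocL (univ : Set N) (n - q) v →
      ExL (univ : Set N) n (N929.cup q u v)) :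
    ExL (univ : Set N) q u := by
  obtain ⟨εu, hεu, hu⟩ := hu
  obtain ⟨τ, y₀, gτ, -, ετ, hετ, hτ⟩ := HT (εu / 4) (by positivity)
  obtain ⟨r, hr, r2, r3, r4⟩ : ∃ r > 0, r ≤ τ.ε ∧ r ≤ ετ ∧ r ≤ εu / 4 :=
    ⟨min τ.ε (min ετ (εu / 4)), lt_min τ.hε (lt_min hετ (by positivity)),
      min_le_left _ _, (min_le_right _ _).trans (min_le_left _ _),
      (min_le_right _ _).trans (min_le_right _ _)⟩
  rw [← ex_iff]
  refine ⟨r, hr, fun c hc => ?_⟩
  have hbc : bd c = 0 := bd_eq_zero hc (by omega)
  -- the dual cocycle
  set v : List N → k := fun l => ev τ.f (sh (single l (1 : k)) c) with hv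
  have hevv : ∀ a : Ch k N, ev v a = ev τ.f (sh a c) := fun a => by
    have := lin_ext_apply (f := ev v)
      (g := (ev τ.f).comp ((sh (k := k) (α := N) (β := N)).flip c)) (fun s => by
        rw [ev_single, one_mul, LinearMap.comp_apply, LinearMap.flip_apply]) a
    simpa using this
  have hvc : CocL (univ : Set N) (n - q) v := by
    refine ⟨τ.ε, τ.hε, fun l hl hs => ?_⟩
    have h4 := bd_sh (k := k) (p := n - q + 1) (q := q) (by omega)
      (single_mem (P := Ln (n - q + 2)) (l := l) hl (1 : k)) (Sp_mono (fun l hl => hl.1) hc.1)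
    rw [hbc, map_zero, smul_zero, add_zero, bd_single, one_smul] at h4
    rw [dl, hevv, ← h4, ← ev_dl]
    refine ev_zero_of (P := fun l : List (N × N) => l.length = n + 2 ∧ Fine univ τ.ε l)
      (fun l hl => τ.coc l hl.1 hl.2) ?_
    refine sh_mem (P := fun l' => l' = l) (fun s t l' hs' ht hl' => ?_)
      (single_mem (P := fun l' : List N => l' = l) rfl _) hc.1
    subst hs'
    refine ⟨?_, fine_prod hs ht.2 le_rfl r2 hl'⟩
    have := hl'.1
    rw [hl, ht.1] at this
    omega
  obtain ⟨γ, -, εγ, hεγ, hγ⟩ := h v hvc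
  obtain ⟨z, hz0, hzw⟩ := not_ex_iff.1 hw0 (min r εγ) (lt_min hr hεγ)
  have hz : Cy univ r n z := hz0.mono subset_rfl (min_le_left _ _)
  have hbz : bd z = 0 := bd_eq_zero hz (by omega)
  -- the slices
  have hs : ∀ y, ev (fun l => τ.f (l.map fun x => (x, y))) z = ev w z := by
    intro y
    rw [slice_const (by omega) τ.hε r2 τ.coc hz y y₀]
    have h1 : ev (fun l => τ.f (l.map fun x => (x, y₀)) - w l) z = 0 := by
      rw [ev_congr (g := dl gτ) (fun l hl => hτ l hl.1 (hl.2.mono subset_rfl r3)) hz.1, ev_dl, hbz,
        map_zero]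
    have h2 : ev (fun l => τ.f (l.map fun x => (x, y₀)) - w l) z =
        ev (fun l => τ.f (l.map fun x => (x, y₀))) z - ev w z := by
      have := ev_add_fun (k := k) (fun l => τ.f (l.map fun x => (x, y₀))) (fun l => (-1) * w l) z
      rw [ev_smul_fun] at this
      rw [show (fun l => τ.f (l.map fun x => (x, y₀)) - w l) =
        fun l => τ.f (l.map fun x => (x, y₀)) + (-1) * w l by funext l; ring, this]
      ring
    rw [h2, sub_eq_zero] at h1
    exact h1
  set F₁ : List (N × N) → k := N929.cup q (fun l => u (l.map Prod.fst)) τ.f with hF₁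
  set F₂ : List (N × N) → k := N929.cup q (fun l => u (l.map Prod.snd)) τ.f with hF₂
  set Z : Ch k (N × N) := sh z c with hZ
  have hbZ : bd Z = 0 := by
    rw [hZ, bd_sh (p := n) (q := q) (by omega) (Sp_mono (fun l hl => hl.1) hz.1)
      (Sp_mono (fun l hl => hl.1) hc.1), hbz, hbc, LinearMap.map_zero₂, map_zero, smul_zero,
      add_zero]
  have hZm : Z ∈ Sp k fun l : List (N × N) => l.length = n + q + 1 ∧ Fine univ r l := by
    refine sh_mem (fun s t l hs ht hl => ?_) hz.1 hc.1
    refine ⟨?_, fine_prod hs.2 ht.2 le_rfl le_rfl hl⟩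
    have := hl.1
    rw [hs.1, ht.1] at this
    omega
  -- first coordinate
  have e1 : ev F₁ Z = 0 := by
    have h1 : ev F₁ Z = ev τ.f (sh (cap q u z) c) := by
      have := bilin_eq_of_mem (P := fun s : List N => s.length = n + 1)
        (Q := fun t : List N => t.length = q + 1)
        (F := (sh (k := k) (α := N) (β := N)).compr₂ (ev F₁))
        (G := ((sh (k := k) (α := N) (β := N)).compr₂ (ev τ.f)).comp (cap q u))
        (fun s t hs ht => by
          rw [LinearMap.compr₂_apply, sh_single, LinearMap.comp_apply, LinearMap.compr₂_apply,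
            cap_single]
          have hs' : s ≠ [] := fun h => by rw [h] at hs; simp at hs
          have ht' : t ≠ [] := fun h => by rw [h] at ht; simp at ht
          have h2 := front_left (k := k) hN τ.f q s t (by omega) hs' ht'
          rw [if_pos (by omega)] at h2
          have h3 : ev F₁ (Sh s t) = u (s.take (q + 1)) * ev τ.f (Sh (s.drop q) t) := h2
          rw [h3, ← mul_one (u (s.take (q + 1))), ← smul_eq_mul (u (s.take (q + 1))) 1,
            ← Finsupp.smul_single, map_smul, LinearMap.smul_apply, sh_single, map_smul, smul_eq_mul,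
            smul_eq_mul, mul_one])
        (Sp_mono (fun l hl => hl.1) hz.1) (Sp_mono (fun l hl => hl.1) hc.1)
      simpa only [LinearMap.compr₂_apply, LinearMap.comp_apply] using this
    rw [h1, ← hevv, ev_cap, ev_congr (g := dl γ) (fun l hl => hγ l hl.1
      (hl.2.mono subset_rfl (min_le_right _ _))) hz0.1, ev_dl, hbz, map_zero]
  -- second coordinate
  have e2 : ev F₂ Z = (-1 : k) ^ ((n + 2) * q) * (ev w z * ev u c) := by
    have h1 : ∀ t : List N, t.length = q + 1 → ev F₂ (sh z (single t (1 : k))) =
        (-1 : k) ^ ((n + 2) * q) * (ev w z * u t) := by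
      intro t ht
      obtain ⟨y, hy⟩ : ∃ y, t.drop q = [y] := by
        apply List.length_eq_one_iff.1
        rw [List.length_drop, ht]
        omega
      have h2 := eq_of_mem (P := fun s : List N => s.length = n + 1)
        (F := (ev F₂).comp ((sh (k := k) (α := N) (β := N)).flip (single t (1 : k))))
        (G := ((-1 : k) ^ ((n + 2) * q) * u t) • ev (fun l => τ.f (l.map fun x => (x, y))))
        (fun s hs => by
          rw [LinearMap.comp_apply, LinearMap.flip_apply, sh_single, LinearMap.smul_apply, ev_single,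
            one_mul, smul_eq_mul]
          have hs' : s ≠ [] := fun h => by rw [h] at hs; simp at hs
          have ht' : t ≠ [] := fun h => by rw [h] at ht; simp at ht
          have h3 := front_right (k := k) hN τ.f q s t (by omega) hs' ht'
          rw [if_pos (by omega), hy, Sh_point_right y hs', ev_single, one_mul, hs,
            List.take_of_length_le (by omega)] at h3
          have h4 : ev F₂ (Sh s t) = (-1 : k) ^ ((n + 1 + 1) * q) *
            (u t * τ.f (s.map fun a => (a, y))) := h3
          rw [h4, mul_assoc])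
        (Sp_mono (fun l hl => hl.1) hz.1)
      rw [LinearMap.comp_apply, LinearMap.flip_apply, LinearMap.smul_apply, hs y,
        smul_eq_mul] at h2
      rw [h2]
      ring
    have h5 := eq_of_mem (P := fun t : List N => t.length = q + 1)
      (F := (ev F₂).comp (sh (k := k) (α := N) (β := N) z))
      (G := ((-1 : k) ^ ((n + 2) * q) * ev w z) • ev u)
      (fun t ht => by
        rw [LinearMap.comp_apply, h1 t ht, LinearMap.smul_apply, ev_single, one_mul, smul_eq_mul]
        ring) (Sp_mono (fun l hl => hl.1) hc.1)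
    rw [LinearMap.comp_apply, LinearMap.smul_apply, smul_eq_mul] at h5
    rw [hZ, h5]
    ring
  -- the homotopy
  have e3 : ev F₂ Z = ev F₁ Z := by
    have h1 : ev (dl (N929.cup (q - 1) (pru u) τ.f)) Z =
        ev (fun l => (-1 : k) ^ (q + 1) * (F₂ l + (-1) * F₁ l)) Z := by
      refine ev_congr (P := fun l : List (N × N) => l.length = n + q + 1 ∧ Fine univ r l)
        (fun l hl => ?_) hZm
      obtain ⟨hl1, hl2⟩ := hl
      have hq1 : q - 1 + 1 = q := by omega
      have hq2 : q - 1 + 2 = q + 1 := by omega
      have h2 := N929.dl_cup (q - 1) (pru u) τ.f l (by omega)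
      rw [hq1, hq2] at h2
      have h3 : dl τ.f (l.drop (q - 1)) = 0 := by
        refine τ.coc _ (by rw [List.length_drop]; omega) ?_
        exact (hl2.sub fun x hx => List.mem_of_mem_drop hx).mono subset_rfl r2
      rw [h2, h3, mul_zero, mul_zero, add_zero]
      by_cases h0 : τ.f (l.drop q) = 0
      · simp only [hF₁, hF₂, N929.cup, h0, mul_zero, add_zero]
      · have hne : l.drop q ≠ [] := fun h => by
          have := congrArg List.length h
          rw [List.length_drop, List.length_nil] at this
          omega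
        obtain ⟨p, hp⟩ := List.exists_mem_of_ne_nil _ hne
        have hpd : dist p.1 p.2 < εu / 4 := by
          by_contra hcon
          exact h0 (τ.supp _ ⟨p, hp, not_lt.1 hcon⟩)
        have hpl : p ∈ l := List.mem_of_mem_drop hp
        have hd : ∀ p' ∈ l, dist p'.1 p'.2 < 2 * r + εu / 4 := by
          intro p' hp'
          have a1 := hl2.2 p' hp' p hpl
          rw [Prod.dist_eq] at a1
          have a2 := (le_max_left _ _).trans_lt a1
          have a3 := (le_max_right _ _).trans_lt a1
          have a4 := dist_triangle4 p'.1 p.1 p.2 p'.2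
          rw [dist_comm p.2 p'.2] at a4
          linarith
        have hne' : l.take (q + 1) ≠ [] := fun h => by
          have := congrArg List.length h
          rw [List.length_take, List.length_nil] at this
          omega
        have hlen : (l.take (q + 1)).length = q + 1 := by
          rw [List.length_take]; omega
        have h5 := dl_pru (k := k) (u := u) hne' (fun l' hl' hx => by
          refine hu l' (by omega) ⟨fun _ _ => mem_univ _, fun a ha b hb => ?_⟩
          obtain ⟨p₁, hp₁, ha⟩ := hx a ha
          obtain ⟨p₂, hp₂, hb⟩ := hx b hb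
          have b1 := List.mem_of_mem_take hp₁
          have b2 := List.mem_of_mem_take hp₂
          have a1 := hl2.2 p₁ b1 p₂ b2
          rw [Prod.dist_eq] at a1
          have a2 := (le_max_left _ _).trans_lt a1
          have a3 := (le_max_right _ _).trans_lt a1
          have a4 := hd p₁ b1
          have a5 := hd p₂ b2
          rcases ha with rfl | rfl <;> rcases hb with rfl | rfl
          · linarith
          · have := dist_triangle p₁.1 p₂.1 p₂.2
            linarith
          · have := dist_triangle p₁.2 p₁.1 p₂.1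
            rw [dist_comm p₁.2 p₁.1] at this
            linarith
          · linarith)
        rw [h5, hlen]
        simp only [hF₁, hF₂, N929.cup]
        ring
    rw [ev_dl, hbZ, map_zero, ev_smul_fun, ev_add_fun, ev_smul_fun] at h1
    have h2 := (mul_eq_zero.1 h1.symm).resolve_left (pow_ne_zero _ (neg_ne_zero.2 one_ne_zero))
    linear_combination h2
  rw [e2, e1, mul_eq_zero, or_iff_right (pow_ne_zero _ (neg_ne_zero.2 one_ne_zero)), mul_eq_zero,
    or_iff_right hzw] at e3
  exact e3

/-! ### Sums, products -/

theorem exL_add {X : Set N} {m : ℕ} {f g : List N → k} (hf : ExL X m f) (hg : ExL X m g) :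
    ExL X m fun l => f l + g l := by
  obtain ⟨a, ha0, ε, hε, ha⟩ := hf
  obtain ⟨b, hb0, ε', hε', hb⟩ := hg
  refine ⟨fun l => a l + b l, fun h l => by simp only [ha0 h, hb0 h, add_zero], min ε ε',
    lt_min hε hε', fun l hl hs => ?_⟩
  beta_reduce
  rw [PS.dl_add, ha l hl (hs.mono le_rfl (min_le_left _ _)),
    hb l hl (hs.mono le_rfl (min_le_right _ _))]

theorem exL_smul {X : Set N} {m : ℕ} {f : List N → k} (c : k) (hf : ExL X m f) :
    ExL X m fun l => c * f l := by
  obtain ⟨a, ha0, ε, hε, ha⟩ := hf
  refine ⟨fun l => c * a l, fun h l => by simp only [ha0 h, mul_zero], ε, hε, fun l hl hs => ?_⟩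
  beta_reduce
  rw [PS.dl_smul, ha l hl hs]

theorem exL_zero {X : Set N} {m : ℕ} : ExL X m fun _ => (0 : k) :=
  ⟨fun _ => 0, fun _ _ => rfl, 1, one_pos, fun l _ _ => by rw [PS.dl_zero_fun]⟩

theorem exL_congr {X : Set N} {m : ℕ} {f f' : List N → k} (hf : ExL X m f)
    (h : ∀ l : List N, l.length = m + 1 → f' l = f l) : ExL X m f' := by
  obtain ⟨a, ha0, ε, hε, ha⟩ := hf
  exact ⟨a, ha0, ε, hε, fun l hl hs => by rw [h l hl, ha l hl hs]⟩

theorem exL_sum {X : Set N} {m : ℕ} {ι : Type} (s : Finset ι) {F : ι → List N → k}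
    (h : ∀ i ∈ s, ExL X m (F i)) : ExL X m fun l => ∑ i ∈ s, F i l := by
  classical
  induction s using Finset.induction_on with
  | empty => simpa using exL_zero (k := k) (X := X) (m := m)
  | insert i s hi ih =>
    refine exL_congr (exL_add (h i (Finset.mem_insert_self _ _))
      (ih fun j hj => h j (Finset.mem_insert_of_mem hj))) fun l _ => ?_
    rw [Finset.sum_insert hi]

/-- The product of a coboundary with a cocycle. -/
theorem exL_cup_left {X : Set N} {q m : ℕ} (hq : 1 ≤ q) {u v : List N → k} (hu : ExL X q u)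
    (hv : CocL X m v) : ExL X (q + m) (N929.cup q u v) := by
  obtain ⟨g, -, ε, hε, hg⟩ := hu
  obtain ⟨ε', hε', hv⟩ := hv
  refine ⟨N929.cup (q - 1) g v, fun h => by omega, min ε ε', lt_min hε hε', fun l hl hs => ?_⟩
  have h1 := N929.dl_cup (q - 1) g v l (by omega)
  have e1 : q - 1 + 1 = q := by omega
  have e2 : q - 1 + 2 = q + 1 := by omega
  rw [e1, e2] at h1
  have hs1 : SmL X ε (l.take (q + 1)) :=
    ⟨fun x hx => hs.1 x (List.mem_of_mem_take hx), fun x hx y hy =>
      (hs.2 x (List.mem_of_mem_take hx) y (List.mem_of_mem_take hy)).trans_le (min_le_left _ _)⟩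
  have hs2 : SmL X ε' (l.drop (q - 1)) :=
    ⟨fun x hx => hs.1 x (List.mem_of_mem_drop hx), fun x hx y hy =>
      (hs.2 x (List.mem_of_mem_drop hx) y (List.mem_of_mem_drop hy)).trans_le (min_le_right _ _)⟩
  have h2 := hg (l.take (q + 1)) (by rw [List.length_take]; omega) hs1
  have h3 := hv (l.drop (q - 1)) (by rw [List.length_drop]; omega) hs2
  rw [h1, h3, ← h2, mul_zero, mul_zero, add_zero]
  rfl

/-- **Poincare duality** for list cochains: in a connected compact metric space with Thom cochains
of degree `n`, a cocycle of degree `q` whose products with all the cocycles of degree `n - q` are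
exact is exact. -/
theorem pdual [PreconnectedSpace N] {n q : ℕ} (hq : 1 ≤ q) (hqn : q + 1 ≤ n)
    {w : List N → k} (hw0 : ¬ ExL (univ : Set N) n w)
    (HT : ∀ ρ₁ > 0, ∃ (τ : Tau k N n ρ₁) (y : N), ExL (univ : Set N) n fun l =>
      τ.f (l.map fun x => (x, y)) - w l)
    {u : List N → k} (hu : CocL (univ : Set N) q u)
    (h : ∀ v : List N → k, CocL (univ : Set N) (n - q) v →
      ExL (univ : Set N) n (N929.cup q u v)) :
    ExL (univ : Set N) q u := by
  obtain ⟨u', hu', hN, hcls⟩ := exists_cls (cls (fun i : Empty => i.elim) (fun i => i.elim) u hu)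
  have h1 : ExL (univ : Set N) q fun l => u' l - u l := cls_eq_cls.1 hcls
  have h2 : ExL (univ : Set N) q u' := by
    refine pd_cup hq hqn hw0 HT hN hu' fun v hv => ?_
    have h3 := exL_cup_left hq h1 hv
    rw [show q + (n - q) = n by omega] at h3
    refine exL_congr (exL_add h3 (h v hv)) fun l _ => ?_
    simp only [N929.cup]
    ring
  refine exL_congr (exL_add h2 (exL_smul (-1) h1)) fun l _ => ?_
  ring

end Vale.Agent.P260.A
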